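import Vale.Agent.P144Z.St.Uniq

/-!
The influence of a boundary field decreases with a positive field.
-/

namespace Vale.Agent.P144Y.G

open Finset Vale.Agent.P144

theorem leb {ι : Type*} [Fintype ι] [DecidableEq ι] {K : ι → ι → ℝ} {h g : ι → ℝ}
    (hK : ∀ i j, 0 ≤ K i j) (hh : ∀ i, 0 ≤ h i) (hg : ∀ i, 0 ≤ g i) (z : ι) :
    ev K (fun i => h i + g i) (sg z) - ev K (fun i => h i - g i) (sg z) ≤ 2 * ev K g (sg z) := by
  let F : Fin 4 → ι → ℝ := ![fun i => h i + g i, fun i => h i - g i, g, fun i => -g i]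
  have hE : MP fun p : ι → Fin 4 → Bool => ∑ i, ∑ j, K i j * (∑ r, vv (p i) r * vv (p j) r) +
      ∑ i, (h i * vv (p i) 0 + h i * vv (p i) 1 + 2 * g i * vv (p i) 2) := by
    refine MP_add (MP_sum _ fun i _ => MP_sum _ fun j _ => MP_mul (MP_const (hK i j))
      (MP_sum _ fun r _ => MP_mul (MP_var i r) (MP_var j r))) (MP_sum _ fun i _ => ?_)
    exact MP_add (MP_add (MP_mul (MP_const (hh i)) (MP_var i 0))
      (MP_mul (MP_const (hh i)) (MP_var i 1)))
      (MP_mul (MP_const (mul_nonneg zero_le_two (hg i))) (MP_var i 2))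
  have h1 := MP_mul (MP_var z 3) (MP_exp hE) _ PosF_one (fun _ _ => 0)
  have e1 : ∀ p : ι → Fin 4 → Bool, Real.exp (∑ i, ∑ j, K i j * (∑ r, vv (p i) r * vv (p j) r) +
      ∑ i, (h i * vv (p i) 0 + h i * vv (p i) 1 + 2 * g i * vv (p i) 2)) =
      ∏ u, wt K (F u) fun l => p l u := fun p => by
    unfold wt ex
    rw [← Real.exp_sum, sum_add_distrib (s := (univ : Finset (Fin 4)))]
    refine congrArg _ (congrArg₂ _ ?_ ?_)
    · simp only [orth, mul_sum]
      exact ((sum_comm.trans (sum_congr rfl fun i _ => sum_comm))).symm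
    · refine (sum_congr rfl fun i _ => ?_).trans sum_comm
      simp only [Fin.sum_univ_four, vv0, vv1, vv2, F, Matrix.cons_val_zero, Matrix.cons_val_one,
        Matrix.cons_val]
      ring
  have e2 : ∀ r : Fin 4, ∑ p : ι → Fin 4 → Bool, sp (p z r) * ∏ u, wt K (F u) (fun l => p l u) =
      ev K (F r) (sg z) * ∏ u, ∑ s, wt K (F u) s := fun r => by
    have a1 : ∑ p : ι → Fin 4 → Bool,
        ∏ u, ((if u = r then sp (p z u) else 1) * wt K (F u) fun l => p l u) =
        ∏ u, ∑ s, (if u = r then sp (s z) else 1) * wt K (F u) s := by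
      rw [Fintype.prod_sum]
      exact Fintype.sum_equiv (Equiv.piComm fun _ _ => Bool) _ _ fun p => rfl
    simp only [prod_mul_distrib, prod_ite_eq', mem_univ, if_true] at a1
    rw [a1, ← mul_prod_erase _ _ (mem_univ r), ← mul_prod_erase _ _ (mem_univ r), ← mul_assoc, ev,
      div_mul_cancel₀ _ (Z_pos K _).ne']
    simp only [if_true]
    refine congrArg _ (prod_congr rfl fun u hu => ?_)
    simp only [if_neg (ne_of_mem_erase hu), one_mul]
  have hZ : 0 < ∏ u, ∑ s, wt K (F u) s := prod_pos fun u _ => Z_pos K _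
  simp only [e1, mono_zero, one_mul, mul_one, vv3] at h1
  have e3 : ∑ p : ι → Fin 4 → Bool, (-sp (p z 0) + sp (p z 1) + sp (p z 2) - sp (p z 3)) / 2 *
      ∏ u, wt K (F u) (fun l => p l u) = (-ev K (F 0) (sg z) + ev K (F 1) (sg z) +
        ev K (F 2) (sg z) - ev K (F 3) (sg z)) / 2 * ∏ u, ∑ s, wt K (F u) s := by
    have a : ∀ p : ι → Fin 4 → Bool, (-sp (p z 0) + sp (p z 1) + sp (p z 2) - sp (p z 3)) / 2 *
        ∏ u, wt K (F u) (fun l => p l u) = 1 / 2 * (sp (p z 1) * ∏ u, wt K (F u) (fun l => p l u) +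
        sp (p z 2) * ∏ u, wt K (F u) (fun l => p l u) -
        sp (p z 0) * ∏ u, wt K (F u) (fun l => p l u) -
        sp (p z 3) * ∏ u, wt K (F u) (fun l => p l u)) := fun p => by ring
    simp only [a, ← mul_sum, sum_sub_distrib, sum_add_distrib, e2]
    ring
  rw [e3] at h1
  have h2 := nonneg_of_mul_nonneg_left h1 hZ
  have h3 : ev K (F 3) (sg z) = -ev K g (sg z) := P144Z.St.ev_flip K g z
  have h4 : ev K (F 2) (sg z) = ev K g (sg z) := rfl
  have h5 : ev K (F 1) (sg z) = ev K (fun i => h i - g i) (sg z) := rfl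
  have h6 : ev K (F 0) (sg z) = ev K (fun i => h i + g i) (sg z) := rfl
  linarith

/-- Monotonicity of the magnetisation in the volume and in the field. -/
theorem ev_emb {β J : ℝ} (hβ : 0 ≤ β) (hJ : 0 ≤ J) {L B : Finset Site} (h : L ⊆ B)
    {H H' : Site → ℝ} (h0 : ∀ u ∈ L, 0 ≤ H u) (h1 : ∀ u ∈ L, H u ≤ H' u) (h2 : ∀ u ∈ B, 0 ≤ H' u)
    {z : Site} (hz : z ∈ L) : ev (KK β J 0 L) (fun i => H i) (sg ⟨z, hz⟩) ≤
      ev (KK β J 0 B) (fun i => H' i) (sg ⟨z, h hz⟩) := by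
  let e : L ↪ B := ⟨fun i => ⟨i.1, h i.2⟩, fun i j hij =>
    Subtype.ext (congrArg (fun x : B => x.1) hij)⟩
  have e1 : ∀ g : B → ℝ, ∑ i : B, (if i.1 ∈ L then g i else 0) = ∑ i : L, g (e i) := fun g => by
    rw [← sum_filter]
    refine (sum_bij (fun i _ => e i) (fun i _ => mem_filter.2 ⟨mem_univ _, i.2⟩)
      (fun _ _ _ _ h => e.injective h) (fun j hj => ⟨⟨j.1, (mem_filter.1 hj).2⟩, mem_univ _, rfl⟩)
      fun _ _ => rfl).symm
  have hK := H436.KK_nonneg hβ hJ le_rfl B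
  refine (H436.ev_comp e (K' := fun i j => if i.1 ∈ L then if j.1 ∈ L then KK β J 0 B i j else 0
    else 0) (h' := fun i => if i.1 ∈ L then H i else 0) (fun s => ?_) (sg ⟨z, hz⟩)).symm.trans_le
    (H436.ev_mono (fun i j => ?_) (fun i => ?_) (fun i j => ?_) (fun i => ?_) (H436.Gin.spin _))
  · unfold ex
    simp only [ite_mul, zero_mul, sum_ite_irrel, sum_const_zero]
    rw [e1 fun i => ∑ j : B, if j.1 ∈ L then KK β J 0 B i j * (sp (s i) * sp (s j)) else 0,
      e1 fun i => H i * sp (s i)]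
    refine congrArg₂ _ (sum_congr rfl fun i _ => ?_) rfl
    exact e1 fun j => KK β J 0 B (e i) j * (sp (s (e i)) * sp (s j))
  · split_ifs
    exacts [hK i j, le_rfl, le_rfl]
  · split_ifs with c
    exacts [h0 _ c, le_rfl]
  · split_ifs
    exacts [le_rfl, hK i j, hK i j]
  · split_ifs with c
    exacts [h1 _ c, h2 _ i.2]

end Vale.Agent.P144Y.G
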