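import Vale.Agent.P144Y.G.Dlr
import Vale.Agent.P144Y.G.Leb

/-!
Covariance bounds in the model with wired components.
-/

namespace Vale.Agent.P144Y.G

open Finset Vale.Agent.P144 Vale.Agent.P144Z.St
open Vale.Agent.P144.H436 (pf gibbs_plus KK_nonneg kc_pos)

/-- The conditional magnetisation. -/
noncomputable def cm (J : ℝ) (L : Finset Site) (z : Site) (σ : Config) : ℝ :=
  gibbs J 0 Vk (Kc / J) (some σ) L fun τ => sp (τ z)

theorem cm_eq (J : ℝ) {L W : Finset Site} (hW : Window L W) {z : Site} (hz : z ∈ L) (σ : Config) :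
    cm J L z σ = ev (KK (Kc / J) J 0 L) (fun i : L => Kc / J * fld J 0 L W (fun _ => True) σ i)
      (sg ⟨z, hz⟩) := by
  rw [cm, gibbs_knight J 0 _ hW]
  simp only [exs_mem hz]
  rfl

theorem mag_eq (J : ℝ) {B : Finset Site} {z : Site} (hz : z ∈ B) : mag J B z =
    ev (KK (Kc / J) J 0 B) (fun i : B => pf (Kc / J) J 0 B (win B) i) (sg ⟨z, hz⟩) := by
  rw [mag, gibbs_plus (window_win B)]
  simp only [exs_mem hz]
  rfl

theorem cpl_ne {J : ℝ} {u v : Site} (h : cpl J 0 u v ≠ 0) : |u.1 - v.1| + |u.2 - v.2| = 1 := by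
  have h1 : dsq u v = 1 := by
    by_contra c
    exact h (by simp [cpl, c])
  unfold dsq at h1
  generalize u.1 - v.1 = a at *
  generalize u.2 - v.2 = b at *
  have a1 : a ≤ 1 := by nlinarith [sq_nonneg b]
  have a2 : -1 ≤ a := by nlinarith [sq_nonneg b]
  have a3 : b ≤ 1 := by nlinarith [sq_nonneg a]
  have a4 : -1 ≤ b := by nlinarith [sq_nonneg a]
  interval_cases a <;> interval_cases b <;> simp_all

theorem sp_sq (b : Bool) : sp b * sp b = 1 := by cases b <;> simp [sp]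

theorem ev_sign {ι : Type*} [Fintype ι] [DecidableEq ι] (K : ι → ι → ℝ) (h : ι → ℝ) (i : ι)
    (b : Bool) : ev K h (sg i) * sp b = ev K (fun j => h j * sp b) (sg i) := by
  cases b
  · simp only [sp_false, mul_neg, mul_one, ev_flip]
  · simp only [sp_true, mul_one]

variable {J : ℝ} (hJ : 0 < J)

include hJ

theorem cm_abs {B : Finset Site} {y : Site} (hy : y ∈ B) (σ : Config) :
    |cm J B y σ| ≤ mag J B y := by
  have hβ : 0 ≤ Kc / J := (div_pos kc_pos hJ).le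
  have hK := KK_nonneg hβ hJ.le le_rfl B
  have h : ∀ i : B, |Kc / J * fld J 0 B (win B) (fun _ => True) σ i| ≤
      pf (Kc / J) J 0 B (win B) i := fun i => by
    rw [← H436.fld_bcp, abs_mul, abs_of_nonneg hβ]
    refine mul_le_mul_of_nonneg_left ((abs_sum_le_sum_abs _ _).trans
      (sum_le_sum fun v _ => ?_)) hβ
    split_ifs
    · rw [abs_mul, abs_sp, abs_of_nonneg (cpl_nonneg hJ.le le_rfl _ _), bcp, sp_true]
    · rw [abs_zero]
  rw [cm_eq J (window_win B) hy, mag_eq J hy, abs_le, ← ev_flip]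
  exact ⟨ev_mono_field hK (sg_mono _) fun i => (abs_le.1 (h i)).1,
    ev_mono_field hK (sg_mono _) fun i => (abs_le.1 (h i)).2⟩

theorem osc {P B : Finset Site} {ξ z : Site} (hξ : ξ ∉ P) (hz : z ∈ P) (hzB : z ∈ B)
    (hB : ∀ y ∉ P, (∃ x ∈ B, |x.1 - y.1| + |x.2 - y.2| ≤ 1) → Cn P ξ y) :
    ∃ l, ∀ σ, Adm P σ → l ≤ cm J (P ∩ B) z σ * sp (σ ξ) ∧
      cm J (P ∩ B) z σ * sp (σ ξ) ≤ l + 2 * mag J B z := by
  have hβ : 0 ≤ Kc / J := (div_pos kc_pos hJ).le
  have hK := KK_nonneg hβ hJ.le le_rfl (P ∩ B)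
  have hc := cpl_nonneg hJ.le (le_refl (0 : ℝ))
  have hzL : z ∈ P ∩ B := mem_inter.2 ⟨hz, hzB⟩
  have hW : Window (P ∩ B) (win B) := ⟨inter_subset_right.trans (window_win B).1,
    fun u hu => (window_win B).2 u (mem_inter.1 hu).2⟩
  set h : Site → ℝ := fun u => Kc / J * ∑ v ∈ win B, if v ∉ P then cpl J 0 u v else 0 with hh
  set g : Site → ℝ := fun u => Kc / J * ∑ v ∈ win B, if v ∈ P ∧ v ∉ B then cpl J 0 u v else 0
    with hg
  have h0 : ∀ u, 0 ≤ h u := fun u => mul_nonneg hβ (sum_nonneg fun v _ => by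
    split_ifs
    exacts [le_rfl, hc _ _])
  have g0 : ∀ u, 0 ≤ g u := fun u => mul_nonneg hβ (sum_nonneg fun v _ => by
    split_ifs
    exacts [hc _ _, le_rfl])
  have a1 := leb hK (h := fun i : ↥(P ∩ B) => h i) (g := fun i : ↥(P ∩ B) => g i) (fun i => h0 i)
    (fun i => g0 i) ⟨z, hzL⟩
  have a2 := ev_emb hβ hJ.le (inter_subset_right (s₁ := P) (s₂ := B)) (H := g)
    (H' := pf (Kc / J) J 0 B (win B)) (fun u _ => g0 u) (fun u _ => by
      rw [← H436.fld_bcp]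
      refine mul_le_mul_of_nonneg_left (sum_le_sum fun v _ => ?_) hβ
      by_cases c1 : v ∈ P <;> by_cases c2 : v ∈ B <;> simp [c1, c2, bcp, sp, hc])
    (fun u _ => pf_nonneg hJ _ _ _) hzL
  rw [← mag_eq J hzB] at a2
  refine ⟨ev (KK (Kc / J) J 0 (P ∩ B)) (fun i => h i - g i) (sg ⟨z, hzL⟩), fun σ hσ => ?_⟩
  have b : ∀ u ∈ P ∩ B, |Kc / J * fld J 0 (P ∩ B) (win B) (fun _ => True) σ u * sp (σ ξ) - h u| ≤
      g u := fun u hu => by
    rw [hh, hg, fld, mul_assoc, ← mul_sub, abs_mul, abs_of_nonneg hβ, sum_mul, ← sum_sub_distrib]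
    refine mul_le_mul_of_nonneg_left ((abs_sum_le_sum_abs _ _).trans
      (sum_le_sum fun v _ => ?_)) hβ
    by_cases c1 : v ∈ P
    · by_cases c2 : v ∈ B <;> simp [c1, c2, abs_mul, abs_sp, abs_of_nonneg (hc u v)]
    · by_cases c2 : cpl J 0 u v = 0
      · simp [c2]
      · have := (hσ.cn hξ (hB v c1 ⟨u, (mem_inter.1 hu).2, (cpl_ne c2).le⟩)).2
        simp [c1, this, mul_assoc, sp_sq]
  rw [cm_eq J hW hzL, ev_sign]
  refine ⟨ev_mono_field hK (sg_mono _) fun i => ?_, le_trans (ev_mono_field hK (sg_mono _)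
    (h' := fun i => h i + g i) fun i => ?_) (by linarith)⟩
  · linarith [(abs_le.1 (b i i.2)).1]
  · linarith [(abs_le.1 (b i i.2)).2]

theorem MM_two {P L : Finset Site} {M : ℕ} (hP : P ⊆ fb M) (h : L ⊆ P) (z : Site) {ξ : Site}
    (hξ : ξ ∉ L) : MM P (z ::ₘ ξ ::ₘ 0) = EW J P M fun σ => cm J L z σ * sp (σ ξ) := by
  rw [MM_EW hJ hP]
  simp only [Multiset.map_cons, Multiset.prod_cons, Multiset.map_zero, Multiset.prod_zero, mul_one]
  exact EW_dlr J hP h (fun σ => sp (σ z)) (fun σ => sp (σ ξ)) fun σ T => by rw [ext_out _ _ hξ]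

omit hJ

theorem cov1 : SCov1 := by
  intro J hJ P B ξ z R hξ hz hzB hB hR
  obtain ⟨M, hP⟩ := P144S.K.exists_fb P
  obtain ⟨l, hl⟩ := osc hJ hξ hz hzB hB
  have hL : P ∩ B ⊆ P := inter_subset_left
  have h1 := EW_cov J P M (g := fun σ => (R.map fun x => sp (σ x)).prod) (c := 1) hl fun σ _ => by
    refine Multiset.prod_induction (fun t : ℝ => |t| ≤ 1) _ (fun a b ha hb => ?_) (by simp)
      fun y hy => ?_
    · rw [abs_mul]
      exact mul_le_one₀ ha (abs_nonneg _) hb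
    · obtain ⟨x, -, rfl⟩ := Multiset.mem_map.1 hy
      exact (abs_sp _).le
  rw [← MM_two hJ hP hL z fun c => hξ (hL c), ← MM_EW hJ hP] at h1
  have h2 := EW_dlr J hP hL (fun σ => sp (σ z))
    (fun σ => sp (σ ξ) * (R.map fun x => sp (σ x)).prod) fun σ T => by
      rw [ext_out _ _ fun c => hξ (hL c), Multiset.map_congr rfl fun x hx => by
        rw [ext_out _ _ fun c => hR x hx (mem_inter.1 c).2]]
  have h3 := mul_nonneg (Nat.cast_nonneg (α := ℝ) (Multiset.card R)) (mag_nonneg hJ B z)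
  rw [MM_EW hJ hP (z ::ₘ ξ ::ₘ R)]
  simp only [Multiset.map_cons, Multiset.prod_cons]
  simp only [mul_assoc] at h1
  rw [h2]
  exact h1.trans (by linarith)

theorem cov2 : SCov2 := by
  intro J hJ P B B' ξ z y hξ hz hzB hy hB' hB hd
  obtain ⟨M, hP⟩ := P144S.K.exists_fb P
  obtain ⟨l, hl⟩ := osc hJ hξ hz hzB hB
  have hL : P ∩ B ⊆ P := inter_subset_left
  have hzL : z ∈ P ∩ B := mem_inter.2 ⟨hz, hzB⟩
  have h1 := EW_cov J P M (g := fun σ => cm J B' y σ * sp (σ ξ)) (c := mag J B' y) hl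
    fun σ _ => by
      rw [abs_mul, abs_sp, mul_one]
      exact cm_abs hJ hy σ
  rw [← MM_two hJ hP hL z fun c => hξ (hL c), ← MM_two hJ hP hB' y fun c => hξ (hB' c)] at h1
  have h2 := EW_dlr J hP hB' (fun σ => sp (σ y)) (cm J (P ∩ B) z) fun σ T => by
    rw [cm_eq J (window_win _) hzL, cm_eq J (window_win _) hzL]
    refine congrArg (fun h => ev _ h _) (funext fun i => congrArg _ (sum_congr rfl fun v _ => ?_))
    by_cases c : v ∈ B'
    · have : cpl J 0 i v = 0 := by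
        by_contra c'
        have := hd i (mem_inter.1 i.2).2 v c
        rw [cpl_ne c'] at this
        omega
      rw [this, zero_mul, zero_mul]
    · rw [ext_out _ _ c]
  rw [MM_two hJ hP hL z (ξ := y) fun c => by simpa using hd y (mem_inter.1 c).2 y hy]
  simp only [mul_comm (cm J (P ∩ B) z _)] at h1 ⊢
  rw [h2, mul_comm (MM P (y ::ₘ _))]
  refine le_of_eq_of_le (congrArg _ (funext fun σ => ?_)) h1
  show cm J B' y σ * _ = _
  linear_combination (-(cm J B' y σ * cm J (P ∩ B) z σ)) * sp_sq (σ ξ)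

end Vale.Agent.P144Y.G
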