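import Vale.Agent.P144Y.Defs
import Vale.Agent.P144S.K.KW

/-!
The model with wired components as a conditioned plus state; conditional expectations.
-/

namespace Vale.Agent.P144Y.G

open Finset Vale.Agent.P144 Vale.Agent.P144.AL Vale.Agent.P144Z.St
open Vale.Agent.P144S.K (sd QQ_box)
open Vale.Agent.P144.H436 (EE)

theorem sum_split {Λ L : Finset Site} (h : L ⊆ Λ) (g : Finset Site → ℝ) :
    ∑ T ∈ Λ.powerset, g T = ∑ T ∈ (Λ \ L).powerset, ∑ T' ∈ L.powerset, g (T ∪ T') := by
  rw [← sum_product']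
  refine sum_nbij' (fun T => (T \ L, T ∩ L)) (fun q => q.1 ∪ q.2) (fun T hT => ?_)
    (fun q hq => ?_) (fun T _ => sdiff_union_inter T L) (fun q hq => ?_)
    fun T _ => by rw [sdiff_union_inter]
  · exact mem_product.2 ⟨mem_powerset.2 (sdiff_subset_sdiff (mem_powerset.1 hT) Subset.rfl),
      mem_powerset.2 inter_subset_right⟩
  · obtain ⟨a, b⟩ := mem_product.1 hq
    exact mem_powerset.2 (union_subset ((mem_powerset.1 a).trans sdiff_subset)
      ((mem_powerset.1 b).trans h))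
  · obtain ⟨a, b⟩ := mem_product.1 hq
    have a1 := fun x hx => (mem_sdiff.1 (mem_powerset.1 a (x := x) hx)).2
    have b1 := fun x hx => mem_powerset.1 b (x := x) hx
    refine Prod.ext ?_ ?_ <;> ext x <;> have := a1 x <;> have := b1 x <;>
      simp only [mem_sdiff, mem_union, mem_inter] <;> tauto

theorem ext_ext (L : Finset Site) (η : Config) (T T' : Finset Site) :
    ext L (ext L η T) T' = ext L η T' := by
  funext x
  unfold P144.ext
  split_ifs <;> rfl

theorem ext_out {L : Finset Site} (η : Config) (T : Finset Site) {x : Site} (h : x ∉ L) :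
    ext L η T x = η x := if_neg h

theorem ext_union {Λ L T T' : Finset Site} (h : L ⊆ Λ) (η : Config) (hT : T ⊆ Λ \ L)
    (hT' : T' ⊆ L) : ext Λ η (T ∪ T') = ext L (ext Λ η T) T' := by
  funext x
  unfold P144.ext
  by_cases c : x ∈ L
  · have : x ∉ T := fun h' => (mem_sdiff.1 (hT h')).2 c
    simp [c, h c, this]
  · have : x ∉ T' := fun h' => c (hT' h')
    simp [c, this]

open Classical in
theorem energy_split (J : ℝ) {Λ L : Finset Site} (h : L ⊆ Λ) : ∃ r : Config → ℝ,
    (∀ σ T, r (ext L σ T) = r σ) ∧ ∀ σ, energy J 0 Vk (fun A => (A ∩ Λ).Nonempty) σ =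
      energy J 0 Vk (fun A => (A ∩ L).Nonempty) σ + r σ := by
  have w1 := window_win Λ
  have w2 : Window L (win Λ) := ⟨h.trans w1.1, fun u hu => w1.2 u (h hu)⟩
  refine ⟨fun σ => -(1 / 2 * ∑ u ∈ win Λ, ∑ v ∈ win Λ, if (u ∈ Λ ∨ v ∈ Λ) ∧ u ∉ L ∧ v ∉ L then
    cpl J 0 u v * (sp (σ u) * sp (σ v)) else 0), fun σ T => ?_, fun σ => ?_⟩
  · refine congrArg (fun t => -(1 / 2 * t)) (sum_congr rfl fun u _ => sum_congr rfl fun v _ => ?_)
    split_ifs with c
    · rw [ext_out _ _ c.2.1, ext_out _ _ c.2.2]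
    · rfl
  · rw [energy_pairs (Phi_pair J 0) (fun _ h => Phi_supp h) w1 (Q := fun _ => True)
      (fun u v => inter_pair u v), energy_pairs (Phi_pair J 0) (fun _ h => Phi_supp h) w2
      (Q := fun _ => True) (fun u v => inter_pair u v), ← neg_add, ← mul_add, ← sum_add_distrib]
    refine congrArg (fun t => -(1 / 2 * t)) (sum_congr rfl fun u _ => ?_)
    rw [← sum_add_distrib]
    refine sum_congr rfl fun v _ => ?_
    have a1 := @h u
    have a2 := @h v
    by_cases c1 : u ∈ L <;> by_cases c2 : v ∈ L <;> simp_all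

/-- Conditional expectations. -/
theorem dlr (J β : ℝ) {Λ L : Finset Site} (h : L ⊆ Λ) (η : Config) (F G : Config → ℝ)
    (hG : ∀ σ T, G (ext L σ T) = G σ) :
    gibbs J 0 Vk β (some η) Λ (fun σ => F σ * G σ) =
      gibbs J 0 Vk β (some η) Λ fun σ => gibbs J 0 Vk β (some σ) L F * G σ := by
  obtain ⟨r, r1, r2⟩ := energy_split J h
  simp only [gibbs, P144.expect]
  refine congrArg (· / _) ?_
  rw [sum_split h, sum_split h fun T => _ / _ * _ * _]
  refine sum_congr rfl fun T hT => ?_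
  have e := fun T' (hT' : T' ∈ L.powerset) =>
    ext_union h η (mem_powerset.1 hT) (mem_powerset.1 hT')
  refine (sum_congr rfl fun T' hT' => by rw [e T' hT']).trans
    (Eq.trans ?_ (sum_congr rfl fun T' hT' => by rw [e T' hT']).symm)
  simp only [ext_ext, hG, r2, r1, mul_add, Real.exp_add]
  generalize ext Λ η T = σ
  have hZ : 0 < ∑ T ∈ L.powerset,
      Real.exp (-β * energy J 0 Vk (fun A => (A ∩ L).Nonempty) (ext L σ T)) :=
    sum_pos (fun _ _ => Real.exp_pos _) ⟨∅, empty_mem_powerset _⟩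
  rw [← mul_sum, ← sum_mul, ← mul_assoc, mul_right_comm (_ / _), div_mul_cancel₀ _ hZ.ne',
    sum_mul, sum_mul]
  exact sum_congr rfl fun _ _ => by ring

/-- The configurations that are constant on the components of the complement. -/
def Adm (P : Finset Site) (σ : Config) : Prop :=
  ∀ x ∉ P, ∀ y ∉ P, |x.1 - y.1| + |x.2 - y.2| = 1 → σ y = σ x

theorem Adm.cn {P : Finset Site} {σ : Config} (h : Adm P σ) {x y : Site} (hx : x ∉ P)
    (hc : Cn P x y) : y ∉ P ∧ σ y = σ x := by
  induction hc with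
  | refl => exact ⟨hx, rfl⟩
  | tail _ st ih => exact ⟨st.1, (h _ ih.1 _ st.1 st.2).trans ih.2⟩

open Classical in
/-- Their indicator. -/
noncomputable def chi (P : Finset Site) (σ : Config) : ℝ := if Adm P σ then 1 else 0

theorem chi_ext {P L : Finset Site} (h : L ⊆ P) (σ : Config) (T : Finset Site) :
    chi P (ext L σ T) = chi P σ := by
  have : Adm P (ext L σ T) ↔ Adm P σ := forall₂_congr fun x hx => forall₂_congr fun y hy => by
    rw [ext_out _ _ fun c => hx (h c), ext_out _ _ fun c => hy (h c)]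
  unfold chi
  rw [this]

theorem chi_bd (P : Finset Site) {S : Finset Site} {M : ℕ} (hS : S ⊆ fb M) :
    ∏ e ∈ bd M S, sd P e = chi P (ext (fb M) bcp (fb M \ S)) := by
  have k : ∀ x, ext (fb M) bcp (fb M \ S) x = decide (x ∉ S) := fun x => by
    unfold P144.ext bcp
    have := @hS x
    by_cases c : x ∈ fb M <;> simp_all
  unfold chi
  split_ifs with c
  · refine prod_eq_one fun e he => if_pos ?_
    by_contra c'
    rw [not_or] at c'
    have := c _ c'.1 _ c'.2 (by rcases e with x | x <;> simp [fP, fQ])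
    rw [k, k, decide_eq_decide] at this
    exact (mem_bd.1 he).2 (not_iff_not.1 this).symm
  · by_contra c'
    have h : ∀ e ∈ EE (box M), fP e ∉ P → fQ e ∉ P → (fP e ∈ S ↔ fQ e ∈ S) := fun e he a b => by
      by_contra d
      exact c' (prod_eq_zero (mem_bd.2 ⟨he, d⟩) (if_neg (not_or.2 ⟨a, b⟩)))
    have h' : ∀ x ∉ P, ∀ y ∉ P, |x.1 - y.1| + |x.2 - y.2| = 1 → x ∈ S → y ∈ S := by
      rintro ⟨a, b⟩ hx ⟨c, d⟩ hy s2 i1
      have hx' := mem_fb.1 (hS i1)
      simp only at hx' s2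
      have cs : (c = a + 1 ∧ d = b) ∨ (c = a - 1 ∧ d = b) ∨ (c = a ∧ d = b + 1) ∨
          (c = a ∧ d = b - 1) := by
        rcases abs_cases (a - c) with e | e <;> rcases abs_cases (b - d) with e' | e' <;> omega
      rcases cs with ⟨rfl, rfl⟩ | ⟨rfl, rfl⟩ | ⟨rfl, rfl⟩ | ⟨rfl, rfl⟩
      · simpa [fP, fQ, i1, hx, hy] using h (Sum.inr (a + 1, d)) (inr_mem.2 (by simp only; omega))
      · simpa [fP, fQ, i1, hx, hy] using h (Sum.inr (a, d)) (inr_mem.2 (by simp only; omega))
      · simpa [fP, fQ, i1, hx, hy] using h (Sum.inl (c, b + 1)) (inl_mem.2 (by simp only; omega))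
      · simpa [fP, fQ, i1, hx, hy] using h (Sum.inl (c, b)) (inl_mem.2 (by simp only; omega))
    refine c fun x hx y hy s => ?_
    rw [k, k, decide_eq_decide, not_iff_not]
    exact ⟨h' y hy x hx (by rw [abs_sub_comm, abs_sub_comm y.2]; exact s), h' x hx y hy s⟩

/-- The expectation in the model with wired components. -/
noncomputable def EW (J : ℝ) (P : Finset Site) (M : ℕ) (F : Config → ℝ) : ℝ :=
  (gibbs J 0 Vk (Kc / J) (some bcp) (fb M) fun σ => F σ * chi P σ) /
    gibbs J 0 Vk (Kc / J) (some bcp) (fb M) fun σ => 1 * chi P σ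

theorem plus_faces {J : ℝ} (hJ : 0 < J) (M : ℕ) (F : Config → ℝ) :
    gibbs J 0 Vk (Kc / J) (some bcp) (fb M) F =
      (∑ S ∈ (fb M).powerset, F (ext (fb M) bcp (fb M \ S)) * tc ^ (bd M S).card) /
        ∑ S ∈ (fb M).powerset, tc ^ (bd M S).card := by
  obtain ⟨C, hC, h⟩ := weight_plus hJ M
  rw [← mul_div_mul_left (∑ S ∈ (fb M).powerset, _) _ hC.ne', mul_sum, mul_sum, gibbs_V0]
  have e : ∀ g : Finset Site → ℝ, ∑ T ∈ (fb M).powerset, g T
      = ∑ S ∈ (fb M).powerset, g (fb M \ S) := by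
    intro g
    refine sum_nbij' (fun T => fb M \ T) (fun T => fb M \ T) (fun T _ => by simp)
      (fun T _ => by simp) (fun T hT => ?_) (fun T hT => ?_) (fun T hT => ?_)
    · exact Finset.sdiff_sdiff_eq_self (mem_powerset.1 hT)
    · exact Finset.sdiff_sdiff_eq_self (mem_powerset.1 hT)
    · rw [Finset.sdiff_sdiff_eq_self (mem_powerset.1 hT)]
  simp only [gibbs, P144.expect]
  rw [e, e fun T => Real.exp _]
  refine congrArg₂ _ (sum_congr rfl fun S hS => ?_) (sum_congr rfl fun S hS =>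
    h S (mem_powerset.1 hS))
  rw [h S (mem_powerset.1 hS)]
  ring

theorem QQ_chi {P : Finset Site} {M : ℕ} (hP : P ⊆ fb M) (R : Multiset Site) :
    2 ^ (box M \ Vx P).card * QQ P R 0 = 2 ^ (box M).card * ∑ S ∈ (fb M).powerset,
      (R.map fun x => sp (ext (fb M) bcp (fb M \ S) x)).prod *
        chi P (ext (fb M) bcp (fb M \ S)) * tc ^ (bd M S).card := by
  rw [← QQ_box hP, Zf_box]
  refine congrArg _ (sum_congr rfl fun S hS => ?_)
  have hS' := mem_powerset.1 hS
  rw [prod_mul_distrib, prod_mul_distrib, prod_cut hS', prod_const, chi_bd P hS']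
  simp only [sp_ext_sdiff hS', ms]
  ring

theorem MM_EW {J : ℝ} (hJ : 0 < J) {P : Finset Site} {M : ℕ} (hP : P ⊆ fb M) (R : Multiset Site) :
    MM P R = EW J P M fun σ => (R.map fun x => sp (σ x)).prod := by
  have hZ : 0 < ∑ S ∈ (fb M).powerset, tc ^ (bd M S).card :=
    sum_pos (fun _ _ => pow_pos tc_pos _) ⟨∅, empty_mem_powerset _⟩
  rw [EW, plus_faces hJ, plus_faces hJ, div_div_div_cancel_right₀ hZ.ne', P144S.MM,
    ← mul_div_mul_left (QQ P R 0) _ (show (2 : ℝ) ^ (box M \ Vx P).card ≠ 0 by positivity),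
    QQ_chi hP, QQ_chi hP, mul_div_mul_left _ _ (by positivity)]
  simp

theorem chi_nonneg (P : Finset Site) (σ : Config) : 0 ≤ chi P σ := by
  unfold chi
  split_ifs
  exacts [zero_le_one, le_rfl]

theorem den_pos (J : ℝ) (P : Finset Site) (M : ℕ) :
    0 < gibbs J 0 Vk (Kc / J) (some bcp) (fb M) fun σ => 1 * chi P σ := by
  simp only [gibbs, P144.expect]
  refine div_pos (sum_pos' (fun T _ => mul_nonneg (mul_nonneg zero_le_one (chi_nonneg _ _))
    (Real.exp_pos _).le) ⟨fb M, mem_powerset_self _, mul_pos ?_ (Real.exp_pos _)⟩)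
    (sum_pos (fun _ _ => Real.exp_pos _) ⟨∅, empty_mem_powerset _⟩)
  have k : ∀ x, ext (fb M) bcp (fb M) x = true := fun x => by
    unfold P144.ext bcp
    split_ifs with c
    exacts [decide_eq_true c, rfl]
  have k' : Adm P (ext (fb M) bcp (fb M)) := fun x _ y _ _ => by rw [k, k]
  rw [chi, if_pos k', one_mul]
  exact one_pos

theorem EW_nonneg (J : ℝ) (P : Finset Site) (M : ℕ) {F : Config → ℝ}
    (h : ∀ σ, Adm P σ → 0 ≤ F σ) : 0 ≤ EW J P M F := by
  refine div_nonneg ?_ (den_pos J P M).le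
  simp only [gibbs, P144.expect]
  refine div_nonneg (sum_nonneg fun T _ => mul_nonneg ?_ (Real.exp_pos _).le)
    (sum_nonneg fun _ _ => (Real.exp_pos _).le)
  unfold chi
  split_ifs with c
  exacts [mul_nonneg (h _ c) zero_le_one, (mul_zero _).ge]

theorem EW_lin (J : ℝ) (P : Finset Site) (M : ℕ) (F G H : Config → ℝ) (a b c d : ℝ) :
    EW J P M (fun σ => a * F σ + b * G σ + c * H σ + d) =
      a * EW J P M F + b * EW J P M G + c * EW J P M H + d := by
  have h := (den_pos J P M).ne'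
  unfold EW
  rw [← mul_div_cancel_right₀ d h]
  generalize hZ : (gibbs J 0 Vk (Kc / J) (some bcp) (fb M) fun σ => 1 * chi P σ) = Z at h ⊢
  rw [mul_div_cancel_right₀ d h]
  nth_rewrite 2 [← mul_div_cancel_right₀ d h]
  rw [← mul_div_assoc, ← mul_div_assoc, ← mul_div_assoc, ← add_div, ← add_div, ← add_div]
  refine congrArg (· / Z) ?_
  rw [← hZ]
  simp only [gibbs, P144.expect, ← mul_div_assoc, ← add_div, mul_sum, ← sum_add_distrib]
  exact congrArg (· / _) (sum_congr rfl fun _ _ => by ring)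

theorem EW_dlr (J : ℝ) {P L : Finset Site} {M : ℕ} (hP : P ⊆ fb M) (h : L ⊆ P)
    (F G : Config → ℝ) (hG : ∀ σ T, G (ext L σ T) = G σ) : EW J P M (fun σ => F σ * G σ) =
      EW J P M fun σ => gibbs J 0 Vk (Kc / J) (some σ) L F * G σ := by
  unfold EW
  simp only [mul_assoc]
  rw [dlr J _ (h.trans hP) bcp F (fun σ => G σ * chi P σ) fun σ T => by rw [hG, chi_ext h]]

/-- The covariance of two bounded observables. -/
theorem EW_cov (J : ℝ) (P : Finset Site) (M : ℕ) {f g : Config → ℝ} {l m c : ℝ}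
    (hf : ∀ σ, Adm P σ → l ≤ f σ ∧ f σ ≤ l + 2 * m) (hg : ∀ σ, Adm P σ → |g σ| ≤ c) :
    EW J P M (fun σ => f σ * g σ) ≤ EW J P M f * EW J P M g + m * c := by
  have k : ∀ a b e d : ℝ, (∀ σ, Adm P σ → 0 ≤ a * (f σ * g σ) + b * f σ + e * g σ + d) →
      0 ≤ a * EW J P M (fun σ => f σ * g σ) + b * EW J P M f + e * EW J P M g + d :=
    fun a b e d h => (EW_nonneg J P M h).trans_eq (EW_lin J P M _ _ _ a b e d)
  have a1 := k (-1) (-c) (l + 2 * m) ((l + 2 * m) * c) fun σ h => by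
    nlinarith [mul_nonneg (sub_nonneg.2 (hf σ h).2) (neg_le_iff_add_nonneg.1 (abs_le.1 (hg σ h)).1)]
  have a2 := k (-1) c l (-(l * c)) fun σ h => by
    nlinarith [mul_nonneg (sub_nonneg.2 (hf σ h).1) (sub_nonneg.2 (abs_le.1 (hg σ h)).2)]
  have a3 := k 0 1 0 (-l) fun σ h => by linarith [(hf σ h).1]
  have a4 := k 0 (-1) 0 (l + 2 * m) fun σ h => by linarith [(hf σ h).2]
  have a5 := k 0 0 1 c fun σ h => by linarith [(abs_le.1 (hg σ h)).1]
  have a6 := k 0 0 (-1) c fun σ h => by linarith [(abs_le.1 (hg σ h)).2]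
  generalize EW J P M (fun σ => f σ * g σ) = x at *
  generalize EW J P M f = y at *
  generalize EW J P M g = z at *
  rcases le_total 0 z with h | h <;> rcases le_total y (l + m) with h' | h' <;> nlinarith

end Vale.Agent.P144Y.G
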